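import Vale.Agent.P272.HY.Defs
import Mathlib.Algebra.Polynomial.Eval.Degree

/-!
# P272 / HY: the frozen interface statements of Stage 1 (A) (v2)
-/

open scoped Manifold ContDiff ComplexOrder Topology ENNReal
open MeasureTheory Metric Set Filter

noncomputable section

namespace Vale.Agent.P272.HY

open Vale.Agent.P272.K

/-- **S12** (matrix Szegő) -/
def S12 : Prop := ∀ (n : ℕ) (P : ℂ → Matrix (Fin n) (Fin n) ℂ) (Q : Matrix (Fin n) (Fin n) ℂ)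
  (lam : ℝ), ContinuousOn P (sphere 0 1) → (∀ z ∈ sphere (0 : ℂ) 1, (P z).PosDef) → Q.PosDef →
  0 < lam →
  (∀ p : Fin n → Polynomial ℂ, hq Q (fun i => (p i).eval 0) ≤
    lam * Real.circleAverage (fun z => hq (P z) (fun i => (p i).eval z)) 0 1) →
  Real.log Q.det.re ≤ n * Real.log lam + Real.circleAverage (fun z => Real.log (P z).det.re) 0 1

section
variable (n : ℕ) (X : Type) [TopologicalSpace X] [ChartedSpace (Cm n) X]

/-- **B2** (Brody) -/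
def B2 : Prop := ∀ w : Chart n X → Cm n → Matrix (Fin n) (Fin n) ℂ, IsHermitian w →
  BrodyHyperbolic n X → ∃ M : ℝ, 0 < M ∧ ∀ f : ℂ → X, HolD n f → BR.spd w f 0 ≤ M

/-- **B4** (maximiser) -/
def B4 : Prop := ∀ w w' : Chart n X → Cm n → Matrix (Fin n) (Fin n) ℂ, IsHermitian w →
  IsHermitian w' → ∀ lam M : ℝ, 0 < lam → (∀ f : ℂ → X, HolD n f → BR.spd w f 0 ≤ M) →
  ∀ x0 : X, ∃ f : ℂ → X, f 0 = x0 ∧ IsMaxDisc w w' lam f ∧ lam * (TE w' 1 f).toReal ≤ M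

/-- **B56** (continuity of the maximiser up to the boundary) -/
def B56 : Prop := ∀ w w' : Chart n X → Cm n → Matrix (Fin n) (Fin n) ℂ, IsHermitian w →
  IsHermitian w' → ∀ lam M : ℝ, 0 < lam → (∀ f : ℂ → X, HolD n f → BR.spd w f 0 ≤ M) →
  ∀ f : ℂ → X, IsMaxDisc w w' lam f →
  ∃ g : ℂ → X, ContinuousOn g (closedBall 0 1) ∧ ∀ z ∈ ball (0 : ℂ) 1, g z = f z

/-- **B9** (holomorphic tube around a closed disc) -/
def B9 : Prop := ∀ f : ℂ → X, ContinuousOn f (closedBall 0 1) → HolD n f →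
  ∃ (δ : ℝ) (F : ℂ → Cm n → X), HolTube f δ F

/-- **B10** (second variation of a holomorphic family of discs) -/
def B10 : Prop := ∀ w : Chart n X → Cm n → Matrix (Fin n) (Fin n) ℂ, IsKahler w →
  ∀ (Γ : ℂ → ℂ → X) (ε ε' r : ℝ), 0 < ε' → ε' < ε → 0 < r → r < 1 →
  (∀ s ∈ ball (0 : ℂ) ε, ∀ z ∈ ball (0 : ℂ) 1, ContinuousAt (fun p : ℂ × ℂ => Γ p.1 p.2) (s, z) ∧
    ∀ e : Chart n X, At e (Γ s z) → DifferentiableAt ℂ (fun p : ℂ × ℂ => e (Γ p.1 p.2)) (s, z)) →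
  ∀ B : ℝ, (∀ s ∈ ball (0 : ℂ) ε',
    Real.circleAverage (fun z => BR.spd w (fun s' => Γ s' z) s) 0 r ≤ B) →
  Real.circleAverage (fun s => (TE w r (Γ s)).toReal) 0 ε' ≤ (TE w r (Γ 0)).toReal + ε' ^ 2 * B

/-- **B11** (the extremal inequality) -/
def B11 : Prop := ∀ w w' : Chart n X → Cm n → Matrix (Fin n) (Fin n) ℂ, IsHermitian w →
  IsKahler w' → ∀ (lam δ : ℝ) (f : ℂ → X) (F : ℂ → Cm n → X), 0 < lam → IsMaxDisc w w' lam f →
  HolTube f δ F → ∀ p : Fin n → Polynomial ℂ, hq (pbM w F 0) (fun i => (p i).eval 0) ≤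
    lam * Real.circleAverage (fun z => hq (pbM w' F z) (fun i => (p i).eval z)) 0 1

/-- **B13a** -/
def B13a : Prop := ∀ w : Chart n X → Cm n → Matrix (Fin n) (Fin n) ℂ, IsHermitian w →
  ∀ (δ : ℝ) (f : ℂ → X) (F : ℂ → Cm n → X), HolTube f δ F →
  ContinuousOn (pbM w F) (closedBall 0 1) ∧ ∀ z ∈ closedBall (0 : ℂ) 1, (pbM w F z).PosDef

/-- **B13** (Jensen) -/
def B13 : Prop := ∀ w : Chart n X → Cm n → Matrix (Fin n) (Fin n) ℂ, IsHermitian w → RicGe w →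
  ∀ (δ : ℝ) (f : ℂ → X) (F : ℂ → Cm n → X), HolTube f δ F → TE w 1 f ≠ ⊤ →
  Real.circleAverage (fun z => Real.log (pbM w F z).det.re) 0 1 ≤
    Real.log (pbM w F 0).det.re + (TE w 1 f).toReal

/-- **B14** (Theorem 1) -/
def B14 : Prop := ∀ w : Chart n X → Cm n → Matrix (Fin n) (Fin n) ℂ, IsHermitian w →
  ∀ M : ℝ, 0 < M → (∀ f : ℂ → X, HolD n f → BR.spd w f 0 ≤ M) →
  ∀ w' : Chart n X → Cm n → Matrix (Fin n) (Fin n) ℂ, IsKahler w' → RicGe w' →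
  ∀ e x, At e x →
    ((n : ℝ) / (Real.exp 1 * M)) ^ n * (w e (e x)).det.re ≤ (w' e (e x)).det.re

end

/-- **B15**: hyperbolic and nef give `c₁(K_X)^n > 0` -/
def B15 : Prop := ∀ (n : ℕ) (_ : 1 ≤ n) (X : Type) [TopologicalSpace X] [T2Space X]
    [CompactSpace X] [Nonempty X] [ChartedSpace (Cm n) X] [IsManifold 𝓘(ℂ, Cm n) ω X]
    (_ : BrodyHyperbolic n X) (w : Chart n X → Cm n → Matrix (Fin n) (Fin n) ℂ) (_ : IsKahler w)
    (_ : NefCanonical w 0) (φ : Chart n X → Cm n → ℝ) (_ : IsCanonicalMetric φ),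
    ∃ I : ℝ, 0 < I ∧ IsIntegral (fun e z => (cHess (φ e) z).det.re) I

end Vale.Agent.P272.HY
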