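import Vale.Agent.P272.BR.Defs
import Vale.Agent.P272.GJ.Green
import Mathlib.Algebra.Polynomial.Eval.Degree

/-!
# P272 / HY: hyperbolic compact Kähler manifolds and holomorphic discs. Frozen definitions (v2).
They rest on `BR.HolAt`, `BR.HolOn`, `BR.spd` (helper991), `GJ.Gr`, `GJ.ddb` (helper453),
`K.quad`, `K.vel`, `K.At`, `K.IsHermitian`, `K.IsKahler` (starting files).
-/

open scoped Manifold ContDiff ComplexOrder Topology ENNReal
open MeasureTheory Metric Set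

noncomputable section

namespace Vale.Agent.P272.HY

open Vale.Agent.P272.K

/-- the squared norm `Σ H_{i j̄} v_i v̄_j` -/
def hq {n : ℕ} (H : Matrix (Fin n) (Fin n) ℂ) (v : Cm n) : ℝ := (quad H v).re

section
variable {n : ℕ} {X : Type*} [TopologicalSpace X] [ChartedSpace (Cm n) X]

/-- `f` is a holomorphic disc in `X` -/
def HolD (n : ℕ) {X : Type*} [TopologicalSpace X] [ChartedSpace (Cm n) X] (f : ℂ → X) : Prop :=
  BR.HolOn n f (ball 0 1)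

/-- `T^{(r)}_w(f) = ∫_{|z|<r} (2/π) log (r/|z|) |f'(z)|²_w dA(z)` -/
def TE (w : Chart n X → Cm n → Matrix (Fin n) (Fin n) ℂ) (r : ℝ) (f : ℂ → X) : ℝ≥0∞ :=
  ∫⁻ z in ball (0 : ℂ) r, ENNReal.ofReal (GJ.Gr r z * BR.spd w f z)

/-- `Ric(w) ≥ -w`, i.e. `i∂∂̄ log det w ≤ w` -/
def RicGe (w : Chart n X → Cm n → Matrix (Fin n) (Fin n) ℂ) : Prop :=
  ∀ e x, At e x → (-cHess (fun z => Real.log (w e z).det.re) (e x) + w e (e x)).PosSemidef

/-- `f` maximises `|f'(0)|²_w - lam T_{w'}(f)` among the holomorphic discs centred at `f 0` -/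
structure IsMaxDisc (w w' : Chart n X → Cm n → Matrix (Fin n) (Fin n) ℂ) (lam : ℝ) (f : ℂ → X) :
    Prop where
  holo : HolD n f
  fin : TE w' 1 f ≠ ⊤
  max : ∀ g : ℂ → X, HolD n g → g 0 = f 0 → TE w' 1 g ≠ ⊤ →
    BR.spd w g 0 - lam * (TE w' 1 g).toReal ≤ BR.spd w f 0 - lam * (TE w' 1 f).toReal

/-- the velocity matrix `(∂(e ∘ F z)_i/∂ζ_j)(ζ)` in the chart `e` -/
def tj (F : ℂ → Cm n → X) (e : Chart n X) (z : ℂ) (ζ : Cm n) : Matrix (Fin n) (Fin n) ℂ :=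
  Matrix.of fun i j => fderiv ℂ (fun ζ' => e (F z ζ')) ζ (Pi.single j 1) i

/-- a holomorphic tube around the closed disc `f` -/
structure HolTube (f : ℂ → X) (δ : ℝ) (F : ℂ → Cm n → X) : Prop where
  pos : 0 < δ
  cont : ContinuousOn (fun p : ℂ × Cm n => F p.1 p.2) (closedBall 0 1 ×ˢ ball 0 δ)
  zero : ∀ z ∈ closedBall (0 : ℂ) 1, F z 0 = f z
  /-- holomorphic in `(z, ζ)` in the open disc, read in charts -/
  holo : ∀ z ∈ ball (0 : ℂ) 1, ∀ ζ ∈ ball (0 : Cm n) δ, ∀ e : Chart n X, At e (F z ζ) →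
    DifferentiableAt ℂ (fun p : ℂ × Cm n => e (F p.1 p.2)) (z, ζ)
  /-- holomorphic in `ζ` up to the boundary of the disc -/
  holz : ∀ z ∈ closedBall (0 : ℂ) 1, ∀ ζ ∈ ball (0 : Cm n) δ, ∀ e : Chart n X, At e (F z ζ) →
    DifferentiableAt ℂ (fun ζ' : Cm n => e (F z ζ')) ζ
  inv : ∀ z ∈ closedBall (0 : ℂ) 1, ∀ e : Chart n X, At e (f z) → (tj F e z 0).det ≠ 0

/-- the matrix of the metric `w` in the frame `∂F/∂ζ_j (z,0)` of `f^*TX` -/
def pbM (w : Chart n X → Cm n → Matrix (Fin n) (Fin n) ℂ) (F : ℂ → Cm n → X) (z : ℂ) :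
    Matrix (Fin n) (Fin n) ℂ :=
  (tj F (chartAt (Cm n) (F z 0)) z 0).transpose *
    w (chartAt (Cm n) (F z 0)) (chartAt (Cm n) (F z 0) (F z 0)) *
    (tj F (chartAt (Cm n) (F z 0)) z 0).map (starRingEnd ℂ)

end

end Vale.Agent.P272.HY
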